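import Vale.Agent.P352X.R.SCH.Dom
import Vale.Agent.P352Z.P352X.Api1C
import Vale.Agent.P352Z.P352X.R.FAR
import Vale.Agent.P352Z.P352X.R.SCH.Tht

open Vale.Agent.P352G

/-!
# P352X, row SCH: one vector `Tht` in the domain of `Kt`
-/

noncomputable section

open MeasureTheory Filter Topology Complex Set
open scoped ComplexConjugate SchwartzMap Convolution

namespace Vale.Agent.P352X.Sch

open Vale.Agent.P352 Vale.Agent.P352.GF Vale.Agent.P352.BW Vale.Agent.P352.H755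
open SN (Bd)
open UniformSpace (Completion)

variable {D : Type*} [NormedAddCommGroup D] [InnerProductSpace ℂ D] [GrD D] {c : CtxZ D}
  {ell : (V → ℂ) → Completion D} {c0 : ℝ} {φ η : ℝ → ℝ}

lemma Th_eqZ (g : GRPZ c) {f : Fn} (hf : IsTest f) : c.Th f =
    (2 : ℂ) • c.Tv (hk va vb f) - ∑ i, c.Tv (hk (ex i) (ex i) f) := by
  simp only [CtxZ.Th, CtxZ.Tv, g.trace f _ hf, Completion.coe_sub, Completion.coe_smul,
    Fin.sum_univ_two, Completion.coe_add]

/-- the trace on slabs is in the domain of `Kt` -/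
theorem th_slabZ (g : GRPZ c) (kd : KDZ c) {b1 b2 : ℝ} (h : b2 < 0 ∨ 0 < b1) :
    ∃ (m : ℕ) (C : ℝ), 0 ≤ C ∧ ∀ f : Sch, tsupport f ⊆ {z | b1 ≤ be z ∧ be z ≤ b2} →
      Dm c.SK (c.Th (ev f)) ∧ ‖gen c.SK (c.Th (ev f))‖ ≤ C * sn m f ∧
      Dm c.Sk (c.Th (ev f)) ∧ ‖gen c.Sk (c.Th (ev f))‖ ≤ C * sn m f := by
  obtain ⟨m, C, hC⟩ := kd.slab b1 b2 h
  refine ⟨m, |C| * (2 * ‖va‖ * ‖vb‖ + ∑ i, ‖ex i‖ * ‖ex i‖), by positivity, fun f hf => ?_⟩
  have h1 := ((hC va vb f hf).1.gn.smul 2).sub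
    (Gn.sum Finset.univ fun i _ => (hC (ex i) (ex i) f hf).1.gn)
  rw [← Th_eqZ g ⟨f, rfl⟩] at h1
  have h2 : ‖gen c.SK (c.Th (ev f))‖ ≤
      |C| * (2 * ‖va‖ * ‖vb‖ + ∑ i, ‖ex i‖ * ‖ex i‖) * sn m f := by
    have a : ∀ h k, ‖gen c.SK (c.Tv (hk h k (ev f)))‖ ≤ |C| * (‖h‖ * ‖k‖) * sn m f := fun h k =>
      (hC h k f hf).2.2.1.trans (by
        rw [mul_assoc C]
        gcongr
        exacts [Lie.sn_nonneg _ _, le_abs_self C])
    rw [h1.gen_eq]
    refine (norm_sub_le _ _).trans ?_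
    rw [norm_smul, Fin.sum_univ_two, Fin.sum_univ_two, Complex.norm_ofNat]
    linarith [a va vb, a (ex 0) (ex 0), a (ex 1) (ex 1), norm_add_le
      (gen c.SK (c.Tv (hk (ex 0) (ex 0) (ev f)))) (gen c.SK (c.Tv (hk (ex 1) (ex 1) (ev f))))]
  exact ⟨h1.dm, h2, (((kt_thmZ c).dom _).1 h1.dm).1, ((kt_thmZ c).split _ h1.dm).2.trans h2⟩

lemma pcs_domZ (g : GRPZ c) (kd : KDZ c) (hφ : Tst φ) {δ R : ℝ} (hδ : 0 < δ)
    (hd : ∀ t, |t| < δ → φ t = 0) (hR : ∀ t, R ≤ |t| → φ t = 0) (hη : Tst η)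
    (hη' : ∀ t, δ ≤ |t| → η t = 0) {u : P3 → ℝ} (hu : Tst u) : ∃ K, 0 ≤ K ∧ ∀ s,
      Dm c.Sk (c.Th (pr u (pcs φ η s))) ∧ ‖gen c.Sk (c.Th (pr u (pcs φ η s)))‖ ≤ K := by
  obtain ⟨m1, C1, p1, h1⟩ := th_slabZ g kd (b1 := δ) (b2 := R) (.inr hδ)
  obtain ⟨m2, C2, p2, h2⟩ := th_slabZ g kd (b1 := -R) (b2 := -δ) (.inl (neg_neg_of_pos hδ))
  obtain ⟨B1, k1⟩ := sn_pcs hu hφ hη m1
  obtain ⟨B2, k2⟩ := sn_pcs hu hφ hη m2
  refine ⟨|C1 * B1| + |C2 * B2|, by positivity, fun s => ?_⟩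
  have hf := Ap.dc_sw (Far.dc_pr hu (tst_pcs hφ hη s))
  have a : ∀ z, pr u (pcs φ η s) z ≠ 0 → δ ≤ |be z| ∧ |be z| < R ∧ |s - be z| < δ := fun z hz =>
    ⟨not_lt.1 fun h => hz (by simp [pr, pcs, hd _ h]), not_le.1 fun h => hz (by simp [pr, pcs, hR _ h]),
      not_le.1 fun h => hz (by simp [pr, pcs, hη' _ h])⟩
  have cl : ∀ b1 b2 : ℝ, IsClosed {z | b1 ≤ be z ∧ be z ≤ b2} := fun b1 b2 =>
    isClosed_Icc.preimage cont_be
  rw [← Ap.ev_sch hf]
  rcases le_total 0 s with hs | hs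
  · obtain ⟨-, -, e1, e2⟩ := h1 (sch _) ((Ap.tsupport_sch hf).le.trans (Ap.tsupp_sub (cl _ _)
      fun z hz => by
        obtain ⟨a1, a2, a3⟩ := a z hz
        rw [abs_lt] at a2 a3
        exact ⟨(le_abs'.1 a1).resolve_left (by linarith), a2.2.le⟩))
    exact ⟨e1, e2.trans (by
      linarith [mul_le_mul_of_nonneg_left (k1 s) p1, le_abs_self (C1 * B1), abs_nonneg (C2 * B2)])⟩
  · obtain ⟨-, -, e1, e2⟩ := h2 (sch _) ((Ap.tsupport_sch hf).le.trans (Ap.tsupp_sub (cl _ _)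
      fun z hz => by
        obtain ⟨a1, a2, a3⟩ := a z hz
        rw [abs_lt] at a2 a3
        exact ⟨a2.1.le, (le_abs'.1 a1).resolve_right (by linarith)⟩))
    exact ⟨e1, e2.trans (by
      linarith [mul_le_mul_of_nonneg_left (k2 s) p2, le_abs_self (C2 * B2), abs_nonneg (C1 * B1)])⟩

/-- **superposition** -/
theorem dm_ThtZ (g : GRPZ c) (kd : KDZ c) (he : EllZ c ell c0) (hφ : Tst φ) {δ R : ℝ} (hδ : 0 < δ)
    (hd : ∀ t, |t| < δ → φ t = 0) (hR : ∀ t, R ≤ |t| → φ t = 0) (hη : Tst η)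
    (hη' : ∀ t, δ ≤ |t| → η t = 0) {u : P3 → ℝ} (hu : Tst u) :
    Dm c.Sk (Tht ell (gam u η) φ) := by
  obtain ⟨K, K0, hK⟩ := pcs_domZ g kd hφ hδ hd hR hη hη' hu
  obtain ⟨m, C, C0, hC⟩ := mu_ft_le
  obtain ⟨B, hB⟩ := sn_pcs hu hφ hη m
  have ug := (kt_thmZ c).ugk
  set A := Icc (-(R + δ)) (R + δ)
  set V0 := Tht ell (gam u η) φ
  set e : ℝ → P3 → ℂ := fun s k => cexp (I * (s * -kap k : ℝ))
  have eb : ∀ s, Bd (e s) := fun s => Bd.expI (kap_meas.neg.const_mul s)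
  have en : ∀ s k, ‖e s k‖ ≤ 1 := fun s k => (FT.norm_exp _).le
  have ft_ : ∀ s, IsTest (pr u (pcs φ η s)) := fun s =>
    Ap.dc_sw (Far.dc_pr hu (tst_pcs hφ hη s))
  set ψ : ℝ → V → ℂ := fun s p => e s (pm p) * ((mu p : ℝ) * ft (pr u (pcs φ η s)) p)
  set v : ℝ → Completion D := fun s =>
    c.bt.Phi (fun p => e s (pm p)) (c.Th (pr u (pcs φ η s)))
  have hv : ∀ s, v s = (-3 : ℂ) • ell (ψ s) := fun s => by
    simp only [v]
    rw [he.th _ (ft_ s), map_smul, he.phi _ _ ((eb s).comp meas_pm) (memLp_mu_ft (ft_ s) _)]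
  have lip : ∀ s t, ‖c.Sk t (v s) - v s‖ ≤ 1 * (K * |t|) := fun s t => by
    rw [(cm_SkZ t).phi (eb s), ← map_sub]
    refine (c.bt.norm_le ((eb s).comp meas_pm) zero_le_one _ (.of_forall fun p => en s _)).trans ?_
    gcongr
    exact (ug.lip (hK s).1.gn t).trans (by gcongr; exact (hK s).2)
  have hψ : ∀ p ∈ Fc, psi (gam u η) φ p = ∫ s in A, ψ s p := fun p hp => by
    rw [setIntegral_eq_integral_of_forall_compl_eq_zero fun s hs => ?_]
    · have h1 := int_pcs hφ hη (al p) (kap (pm p))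
      rw [psi, al_eq_mu ((mem_Fc p).1 hp).1.ne']
      simp only [ψ, e, ft_pr]
      rw [integral_congr_ae (g := fun s => (mu p * ft3 (cx u) (pm p)) *
        (cexp (I * (s * -kap (pm p) : ℝ)) * ft1 (cx (pcs φ η s)) (al p)))
        (.of_forall fun s => by simp only []; ring), integral_const_mul, h1]
      simp only [gam, kap, pm_1, pm_2]
      ring
    · have : pcs φ η s = fun _ => 0 := funext fun t => by
        by_cases h1 : R ≤ |t|
        · simp [pcs, hR t h1]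
        · have h2 : R + δ < |s| := not_le.1 fun k => hs (abs_le.1 k)
          simp [pcs, hη' (s - t) (by linarith [abs_sub_abs_le_abs_sub s t])]
      simp [ψ, ft_pr, this, ft1, cx]
  have weak : ∀ w, inner ℂ V0 w = ∫ s in A, inner ℂ (v s) w := fun w => by
    obtain ⟨b, b1, b2, b3⟩ := (bl_ellZ he).riesz w
    have l2 : ∀ s, MemLp (ψ s) 2 (volume.restrict Fc) := fun s =>
      l2_mul ((eb s).comp meas_pm) (memLp_mu_ft (ft_ s) _)
    simp only [V0, Tht_eq, hv, inner_smul_left, integral_const_mul, b3 _ (l2 _),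
      b3 _ (psi_l2 (gam_l2 hu hη) (fn1_of_tst hφ))]
    congr 1
    rw [← integral_integral_swap]
    · refine setIntegral_congr_fun meas_Fc fun p hp => ?_
      simp only [hψ p hp, ← integral_conj, integral_mul_const]
    · have m1 := (meas_pcs hφ hη).comp (measurable_snd.prodMk (meas_al.comp measurable_fst) :
        Measurable fun x : V × ℝ => (x.2, al x.1))
      have m2 := (cont_ft3 (g := cx u) (Ap.cs_int (Ap.dc_cx hu))).measurable
      have m4 := kap_meas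
      refine (((wG_l2.integrable_mul b1.norm).const_mul (1 * (C * B))).mul_prod
        (integrable_const (1 : ℝ))).mono' (Measurable.aestronglyMeasurable ?_)
        (.of_forall fun x => ?_)
      · simp only [ψ, e, ft_pr, Function.uncurry_def]
        exact (continuous_conj.measurable.comp ((by fun_prop : Measurable _).mul
          ((by fun_prop : Measurable _).mul ((by fun_prop : Measurable _).mul m1)))).mul
          (b2.comp measurable_fst)
      · have h1 := hC (sch (pr u (pcs φ η x.2))) x.1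
        rw [Ap.ev_sch (ft_ _)] at h1
        have h2 : 0 ≤ wG x.1 := by unfold wG; positivity
        have h3 := mul_le_mul (en x.2 (pm x.1))
          (h1.trans (by gcongr; exact hB _ : _ ≤ C * B * wG x.1)) (norm_nonneg _) zero_le_one
        simp only [Function.uncurry_def, norm_mul (conj _), norm_conj, mul_one, Pi.mul_apply]
        rw [norm_mul]
        exact (mul_le_mul_of_nonneg_right h3 (norm_nonneg _)).trans_eq (by ring)
  refine (ug.dm_of_lip (K := K * volume.real A) (Eventually.frequently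
    (.of_forall fun t => ?_))).1
  set z := c.Sk t V0 - V0
  have h1 : ∀ x, inner ℂ x (c.Sk (-t) z - z) = inner ℂ (c.Sk t x - x) z := fun x => by
    rw [inner_sub_right, inner_sub_left, ug.adj', neg_neg]
  have h2 := weak (c.Sk (-t) z - z)
  simp only [h1] at h2
  have h3 := norm_setIntegral_le_of_norm_le_const (f := fun s => inner ℂ (c.Sk t (v s) - v s) z)
    (μ := volume) (s := A) (C := 1 * (K * |t|) * ‖z‖) isCompact_Icc.measure_lt_top fun s _ =>
      (norm_inner_le_norm _ _).trans (by gcongr; exact lip s t)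
  rw [← h2, inner_self_eq_norm_sq_to_K, norm_pow, RCLike.norm_ofReal, abs_norm] at h3
  rcases (norm_nonneg z).eq_or_lt with h4 | h4
  · rw [← h4]
    positivity
  · exact le_of_mul_le_mul_right (by linarith) h4

/-- **one vector in the domain** -/
theorem exists_dmZ (g : GRPZ c) (kd : KDZ c) (he : EllZ c ell c0) (hφ : D0 φ) :
    ∃ γ, MemLp γ 2 m3 ∧ 0 < ∫ k, ‖γ k‖ ^ 2 ∂m3 ∧ Dm c.Sk (Tht ell γ φ) := by
  obtain ⟨δ, hδ, hd⟩ := Metric.isOpen_iff.1 (isClosed_tsupport φ).isOpen_compl 0 hφ.2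
  obtain ⟨R, hR⟩ := hφ.1.2.isCompact.isBounded.subset_ball 0
  obtain ⟨η, hη, s1, -, i1⟩ := Ap.ex_rho (volume : Measure ℝ) (Metric.ball_mem_nhds 0 hδ)
  obtain ⟨u, hu, -, -, i2⟩ := Ap.ex_rho (volume : Measure P3) (x := 0) univ_mem
  have c1 := cont_ft1 (φ := cx η) (Ap.cs_int (Ap.dc_cx hη))
  have c2 := cont_ft3 (g := cx u) (Ap.cs_int (Ap.dc_cx hu))
  refine ⟨gam u η, gam_l2 hu hη, ?_, dm_ThtZ g kd he hφ.1 hδ (R := R)
    (fun t ht => image_eq_zero_of_notMem_tsupport (hd (by simpa using ht)))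
    (fun t ht => image_eq_zero_of_notMem_tsupport fun k => by simpa [ht.not_gt] using hR k) hη
    (fun t ht => image_eq_zero_of_notMem_tsupport fun k => by simpa [ht.not_gt] using s1 k) hu⟩
  have e : ∀ᶠ t in 𝓝 (0 : ℝ), ft3 (cx u) (t, 0) ≠ 0 :=
    (c2.comp (continuous_id.prodMk continuous_const)).continuousAt.eventually_ne (by
      have := ft3_zero (cx u)
      simp only [cx, integral_complex_ofReal, i2] at this
      exact this.trans_ne (by simp))
  obtain ⟨t, t1, t2⟩ := ((e.filter_mono nhdsWithin_le_nhds).and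
    (self_mem_nhdsWithin (s := Ioi (0 : ℝ)))).exists
  have c3 : ContinuousOn (gam u η) Pp := (c1.comp_continuousOn (ContinuousOn.neg
    (ContinuousOn.div (by fun_prop) (by fun_prop) fun k hk => (mul_pos two_pos hk).ne'))).mul
    c2.continuousOn
  refine pos_of_ne (gam_l2 hu hη) (c3.isOpen_inter_preimage isOpen_Pp isOpen_compl_singleton)
    ⟨(t, 0), ⟨t2, mul_ne_zero ?_ t1⟩, t2⟩ fun k hk => hk.1.2
  have := ft1_zero (cx η)
  simp only [cx, integral_complex_ofReal, i1] at this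
  simpa [kap] using this.trans_ne (by simp)

end Vale.Agent.P352X.Sch

end
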